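import Vale.Agent.P112.Defs

namespace Vale.Agent.P112

open MeasureTheory

/-- The turning of `v` along the line through `x` in direction `v x`:
`|v (x + s v x) - v x|`. -/
noncomputable def turn (v : Plane → Plane) (x : Plane) (s : ℝ) : ℝ := ‖v (x + s • v x) - v x‖

/-- Finite type along its own lines, with constants `K` and `β`: on every interval `|s| ≤ r ≤ 1`
the turning decays at least like the power `β` towards the centre, and is small compared with its
values on the interval only on a small part of the interval. -/
structure FiniteType (v : Plane → Plane) (K β : ℝ) : Prop where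
  growth : ∀ (x : Plane) (r s : ℝ), 0 < r → r ≤ 1 → |s| ≤ r →
    ∃ s' : ℝ, |s'| ≤ r ∧ turn v x s ≤ K * (|s| / r) ^ β * turn v x s'
  sublevel : ∀ (x : Plane) (r δ s' : ℝ), 0 < r → r ≤ 1 → 0 < δ → δ ≤ 1 → |s'| ≤ r →
    volume {s : ℝ | |s| ≤ r ∧ turn v x s < δ * turn v x s'} ≤ ENNReal.ofReal (K * δ ^ β * r)

end Vale.Agent.P112
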