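import Vale.Agent.P112.FT.TypeDefs

namespace Vale.Agent.P112

open MeasureTheory
open scoped ENNReal

/-- `F` is a Schwartz function on the plane. -/
def IsSchwartz (F : Plane → ℂ) : Prop := ∃ f : SchwartzMap Plane ℂ, ⇑f = F

/-- The square of the `L²` norm, as an extended nonnegative real. -/
noncomputable def l2sq (F : Plane → ℂ) : ℝ≥0∞ := ∫⁻ x, ‖F x‖ₑ ^ 2

/-- The strong type (2,2) inequality with constant `C` for the field `v` at scale `a`,
for all Schwartz functions. -/
def StrongType (v : Plane → Plane) (a C : ℝ) : Prop :=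
  ∀ F : Plane → ℂ, IsSchwartz F → l2sq (hilbert v a F) ≤ ENNReal.ofReal C * l2sq F

/-- The weak type (2,2) inequality with constant `C` for the field `v` at scale `a`,
for all Schwartz functions. -/
def WeakType (v : Plane → Plane) (a C : ℝ) : Prop :=
  ∀ F : Plane → ℂ, IsSchwartz F → ∀ lam : ℝ, 0 < lam →
    volume {x | lam < ‖hilbert v a F x‖} ≤ ENNReal.ofReal (C / lam ^ 2) * l2sq F

/-- The pair `(a, C)` is good in Stein's conjecture: the weak type (2,2) inequality holds
with the same `a` and `C` for every unit vector field with Lipschitz constant at most one. -/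
def SteinHolds (a C : ℝ) : Prop :=
  ∀ v : Plane → Plane, (∀ x, ‖v x‖ = 1) → LipschitzWith 1 v → WeakType v a C

end Vale.Agent.P112
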